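import Vale.Agent.P025.H378.Q2

/-!
# The finite check: ten points of `ℚ₂` and their square classes
-/

namespace Vale.Agent.P025.H378

open PadicInt

/-! ### the class function -/

open Classical in
/-- the class of a nonzero element of `ℚ₂` -/
noncomputable def cl (u : ℚ_[2]) : Fin 8 :=
  if h : u ≠ 0 then (rep u h).choose else 0

theorem cl_spec (u : ℚ_[2]) (hu : u ≠ 0) :
    ∃ w : ℚ_[2], w ≠ 0 ∧ u = (R (cl u) : ℚ_[2]) * w ^ 2 := by
  unfold cl
  rw [dif_pos hu]
  exact (rep u hu).choose_spec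

theorem cl_eq (u : ℚ_[2]) (i : Fin 8) (w : ℚ_[2]) (hw : w ≠ 0) (h : u = (R i : ℚ_[2]) * w ^ 2) :
    cl u = i := by
  have hu : u ≠ 0 := by rw [h]; exact mul_ne_zero (R_cast_ne i) (pow_ne_zero _ hw)
  obtain ⟨w', hw', h'⟩ := cl_spec u hu
  exact class_unique _ _ w' w hw' (h'.symm.trans h)

theorem cl_mul (u v : ℚ_[2]) (hu : u ≠ 0) (hv : v ≠ 0) : cl (u * v) = add (cl u) (cl v) := by
  obtain ⟨w, hw, h⟩ := cl_spec u hu
  obtain ⟨w', hw', h'⟩ := cl_spec v hv
  refine cl_eq _ _ (w * w' * gg (cl u) (cl v)) ?_ ?_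
  · exact mul_ne_zero (mul_ne_zero hw hw') (by exact_mod_cast gg_ne _ _)
  · have hR : ((R (cl u) : ℤ) : ℚ_[2]) * (R (cl v) : ℚ_[2]) =
        (R (add (cl u) (cl v)) : ℚ_[2]) * (gg (cl u) (cl v) : ℚ_[2]) ^ 2 := by
      exact_mod_cast R_mul _ _
    calc u * v = ((R (cl u) : ℚ_[2]) * w ^ 2) * ((R (cl v) : ℚ_[2]) * w' ^ 2) := by rw [← h, ← h']
      _ = (((R (cl u) : ℤ) : ℚ_[2]) * (R (cl v) : ℚ_[2])) * (w ^ 2 * w' ^ 2) := by ring
      _ = _ := by rw [hR]; ring

theorem cl_eq_iff (u v : ℚ_[2]) (hu : u ≠ 0) (hv : v ≠ 0) :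
    cl u = cl v ↔ ∃ w : ℚ_[2], w ≠ 0 ∧ u = v * w ^ 2 := by
  constructor
  · intro h
    obtain ⟨w, hw, h1⟩ := cl_spec u hu
    obtain ⟨w', hw', h2⟩ := cl_spec v hv
    refine ⟨w / w', div_ne_zero hw hw', ?_⟩
    rw [h] at h1
    have : u * w' ^ 2 = v * w ^ 2 := by
      calc u * w' ^ 2 = ((R (cl v) : ℚ_[2]) * w ^ 2) * w' ^ 2 := by rw [← h1]
        _ = ((R (cl v) : ℚ_[2]) * w' ^ 2) * w ^ 2 := by ring
        _ = v * w ^ 2 := by rw [← h2]
    rw [div_pow]
    field_simp
    exact this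
  · rintro ⟨w, hw, h⟩
    obtain ⟨w', hw', h2⟩ := cl_spec v hv
    refine cl_eq _ _ (w' * w) (mul_ne_zero hw' hw) ?_
    rw [mul_pow, ← mul_assoc, ← h2, h]

theorem cl_div (u v : ℚ_[2]) (hu : u ≠ 0) (hv : v ≠ 0) : cl (u / v) = add (cl u) (cl v) := by
  rw [← cl_mul u v hu hv]
  rw [cl_eq_iff _ _ (div_ne_zero hu hv) (mul_ne_zero hu hv)]
  refine ⟨v⁻¹, inv_ne_zero hv, ?_⟩
  field_simp

theorem conic_cl (u v : ℚ_[2]) (hu : u ≠ 0) (hv : v ≠ 0) :
    (∃ X Y : ℚ_[2], u * X ^ 2 + v * Y ^ 2 = 1) ↔ T (cl u) (cl v) = false := by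
  rw [← conic_iff]
  obtain ⟨w, hw, h⟩ := cl_spec u hu
  obtain ⟨w', hw', h'⟩ := cl_spec v hv
  constructor
  · rintro ⟨X, Y, e⟩
    refine ⟨w * X, w' * Y, ?_⟩
    rw [mul_pow, mul_pow, ← mul_assoc, ← mul_assoc, ← h, ← h']
    exact e
  · rintro ⟨X, Y, e⟩
    refine ⟨X / w, Y / w', ?_⟩
    have h1 : u * (X / w) ^ 2 = (R (cl u) : ℚ_[2]) * X ^ 2 := by
      calc u * (X / w) ^ 2 = ((R (cl u) : ℚ_[2]) * w ^ 2) * (X / w) ^ 2 := by rw [← h]
        _ = _ := by field_simp
    have h2 : v * (Y / w') ^ 2 = (R (cl v) : ℚ_[2]) * Y ^ 2 := by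
      calc v * (Y / w') ^ 2 = ((R (cl v) : ℚ_[2]) * w' ^ 2) * (Y / w') ^ 2 := by rw [← h']
        _ = _ := by field_simp
    rw [h1, h2]; exact e

/-! ### classes of integers -/

/-- remove factors `4` -/
def strip : ℕ → ℤ → ℤ
  | 0, n => n
  | k + 1, n => if n % 4 = 0 then strip k (n / 4) else n

/-- class of an odd residue -/
def u4 (r : ℤ) : Fin 8 := if r = 1 then 0 else if r = 5 then 1 else if r = 7 then 2 else 3

/-- class of an integer -/
def clsI (m : ℤ) : Fin 8 :=
  if strip 10 m % 2 = 0 then add 4 (u4 (strip 10 m / 2 % 8)) else u4 (strip 10 m % 8)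

theorem strip_spec (k : ℕ) : ∀ n : ℤ, ∃ j : ℕ, n = 4 ^ j * strip k n := by
  induction k with
  | zero => intro n; exact ⟨0, by simp [strip]⟩
  | succ k ih =>
    intro n
    unfold strip
    split
    · rename_i h
      obtain ⟨j, hj⟩ := ih (n / 4)
      refine ⟨j + 1, ?_⟩
      have : n = 4 * (n / 4) := by omega
      calc n = 4 * (n / 4) := this
        _ = 4 * (4 ^ j * strip k (n / 4)) := by rw [← hj]
        _ = _ := by ring
    · exact ⟨0, by simp⟩

theorem cl_odd (s : ℤ) (hs : s % 2 ≠ 0) : cl (s : ℚ_[2]) = u4 (s % 8) := by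
  have key : ∃ m : ℤ, s * R (u4 (s % 8)) = 8 * m + 1 := by
    have h8 : s % 8 = 1 ∨ s % 8 = 3 ∨ s % 8 = 5 ∨ s % 8 = 7 := by omega
    have hd : s = 8 * (s / 8) + s % 8 := by omega
    rcases h8 with h | h | h | h
    · refine ⟨s / 8, ?_⟩
      rw [h] at hd ⊢
      have : R (u4 1) = 1 := by decide
      rw [this]; omega
    · refine ⟨-5 * (s / 8) - 2, ?_⟩
      rw [h] at hd ⊢
      have : R (u4 3) = -5 := by decide
      rw [this]; omega
    · refine ⟨5 * (s / 8) + 3, ?_⟩
      rw [h] at hd ⊢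
      have : R (u4 5) = 5 := by decide
      rw [this]; omega
    · refine ⟨- (s / 8) - 1, ?_⟩
      rw [h] at hd ⊢
      have : R (u4 7) = -1 := by decide
      rw [this]; omega
  obtain ⟨m, hm⟩ := key
  obtain ⟨w, hw0, hw⟩ := sq_int 0 m
  have hR := R_cast_ne (u4 (s % 8))
  refine cl_eq _ _ (w / R (u4 (s % 8))) (div_ne_zero hw0 hR) ?_
  rw [pow_zero, one_mul, ← hm] at hw
  push_cast at hw
  rw [div_pow, hw]
  field_simp

theorem cl_int (m : ℤ) (hm : strip 10 m % 4 ≠ 0) : cl (m : ℚ_[2]) = clsI m := by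
  obtain ⟨j, hj⟩ := strip_spec 10 m
  set s := strip 10 m with hs
  have hs0 : s ≠ 0 := by intro h; rw [h] at hm; simp at hm
  have h1 : cl (m : ℚ_[2]) = cl (s : ℚ_[2]) := by
    rw [cl_eq_iff]
    · refine ⟨2 ^ j, pow_ne_zero _ two_ne_zero, ?_⟩
      rw [hj]; push_cast
      rw [← pow_mul, mul_comm j 2, pow_mul]
      norm_num
      ring
    · rw [hj]; push_cast
      exact mul_ne_zero (pow_ne_zero _ (by norm_num)) (by exact_mod_cast hs0)
    · exact_mod_cast hs0
  rw [h1]
  unfold clsI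
  rw [← hs]
  split
  · rename_i h2
    have h3 : s = 2 * (s / 2) := by omega
    have h4 : (s / 2) % 2 ≠ 0 := by omega
    have h5 := cl_odd (s / 2) h4
    have h6 : (((s / 2 : ℤ)) : ℚ_[2]) ≠ 0 := by
      have : s / 2 ≠ 0 := by omega
      exact_mod_cast this
    have h7 : cl (2 : ℚ_[2]) = 4 := by
      refine cl_eq _ _ 1 one_ne_zero ?_
      have : R 4 = 2 := by decide
      rw [this]; norm_num
    calc cl (s : ℚ_[2]) = cl (2 * ((s / 2 : ℤ) : ℚ_[2])) := by
          congr 1
          have : ((2 * (s / 2) : ℤ) : ℚ_[2]) = 2 * ((s / 2 : ℤ) : ℚ_[2]) := by push_cast; ring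
          rw [← this, ← h3]
      _ = _ := by rw [cl_mul _ _ two_ne_zero h6, h7, h5]
  · rename_i h2
    exact cl_odd s h2

/-! ### the search -/

/-- table of `T` as a bit mask -/
def TN (i j : ℕ) : Bool := Nat.testBit 10837449240524681216 (8 * i + j)

/-- class of `j + 1` -/
def DD (j : ℕ) : ℕ := 9146592 / 8 ^ j % 8
/-- class of `-(j + 1)` -/
def EE (j : ℕ) : ℕ := 46314610 / 8 ^ j % 8

/-- can the class `c` be added to the prefix? -/
def okAdd (e : Bool) : ℕ → List ℕ → ℕ → Bool
  | _, [], _ => true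
  | j, x :: xs, c => (TN (x ^^^ DD j) (c ^^^ EE j) == e) && okAdd e (j + 1) xs c

/-- the code of a pattern -/
def code (p : List ℕ) : ℕ := p.foldl (fun acc x => acc * 8 + x) 0

/-- depth first search: all admissible patterns satisfy `W` -/
def search (e : Bool) (W : ℕ → Bool) : ℕ → List ℕ → Bool
  | 0, p => W (code p)
  | k + 1, p => (List.range 8).all fun c => !okAdd e 0 p c || search e W k (c :: p)

/-- witnesses: code, numerator, denominator -/
def wit : List (ℕ × ℤ × ℤ) := [
  (0, 1, 16), (9182880, 73, 1), (9215672, 25, 1), (17043521, -3, 4),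
  (32115417, 13, 1), (32148185, -19, 1), (73463045, 10, 1), (73463109, -22, 1),
  (73725317, -6, 1), (73725381, 26, 1), (90760196, 66, 1), (90760260, -190, 1),
  (90760324, -62, 1), (90760388, 194, 1), (90760452, 34, 1), (90760516, -94, 1),
  (90760580, -30, 1), (90760644, 98, 1), (91022340, 18, 1), (91022404, -46, 1),
  (91022468, -14, 1), (91022532, 50, 1), (136348168, 1, 4), (143400608, -183, 1),
  (143433400, -39, 1), (153391689, -3, 16), (166398673, -3, 1), (166431441, 29, 1),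
  (239093263, 70, 1), (239093327, 22, 1), (239355407, -186, 1), (239355471, -42, 1),
  (239617551, -58, 1), (239617615, -10, 1), (239879695, 198, 1), (239879759, 54, 1),
  (240141839, 38, 1), (240403983, -90, 1), (240666127, -26, 1), (240928271, 102, 1),
  (256923342, 14, 1), (257185486, -18, 1), (257447566, -2, 1), (257709710, 30, 1),
  (269583316, 72, 1), (269587415, 24, 1), (277618336, -55, 1), (277651120, -7, 1),
  (286360532, -184, 1), (286364631, -40, 1), (298322113, 69, 1), (298354881, -187, 1),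
  (298387649, -59, 1), (298420417, 197, 1), (298453185, 37, 1), (298485953, -91, 1),
  (298518721, -27, 1), (298551489, 101, 1), (303137748, -56, 1), (303141846, -8, 1),
  (306783378, -1, 16), (319914964, 200, 1), (319919062, 56, 1), (323826899, 3, 4),
  (336692180, 136, 1), (336692181, 40, 1), (336966544, 16, 1), (336966545, -48, 1),
  (353469396, -376, 1), (353469397, -88, 1), (353743762, -16, 1), (353743763, 48, 1),
  (370246612, -120, 1), (370246613, -24, 1), (370516880, 64, 1), (370516881, -192, 1),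
  (370516882, -64, 1), (370516883, 192, 1), (370516884, 128, 1), (370516885, -384, 1),
  (370516886, -128, 1), (370516887, 384, 1), (387023828, 392, 1), (387023829, 104, 1),
  (387294100, 32, 1), (387294101, -96, 1), (387294102, -32, 1), (387294103, 96, 1),
  (406667611, 12, 1), (406671707, -20, 1), (411836064, 201, 1), (411868848, 57, 1),
  (423453018, -4, 1), (423457114, 28, 1), (432539849, 21, 1), (432572617, -43, 1),
  (432605385, -11, 1), (432638153, 53, 1), (439943448, 68, 1), (439947544, -188, 1),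
  (439951640, -60, 1), (439955736, 196, 1), (439959832, 36, 1), (439963928, -92, 1),
  (439968024, -28, 1), (439972120, 100, 1), (443131546, -1, 4), (456720665, 20, 1),
  (456724761, -44, 1), (456728857, -12, 1), (456732953, 52, 1), (460175067, 3, 16),
  (546053792, 137, 1), (546053800, 41, 1), (548248704, 17, 1), (548248712, -47, 1),
  (587704363, 11, 1), (587704875, -21, 1), (589802539, -5, 1), (589803051, 27, 1),
  (613566756, 1, 8), (666532775, 3, 2), (680271520, -375, 1), (680271528, -87, 1),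
  (682466448, -15, 1), (682466456, 49, 1), (726081571, 67, 1), (726082083, -189, 1),
  (726082595, -61, 1), (726083107, 195, 1), (726083619, 35, 1), (726084131, -93, 1),
  (726084643, -29, 1), (726085155, 99, 1), (728178723, 19, 1), (728179235, -45, 1),
  (728179747, -13, 1), (728180259, 51, 1), (766958445, -3, 8), (782166510, -1, 2),
  (814489248, -119, 1), (814489256, -23, 1), (816651392, 65, 1), (816651400, -191, 1),
  (816651408, -63, 1), (816651416, 193, 1), (816651424, 129, 1), (816651432, -383, 1),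
  (816651440, -127, 1), (816651448, 385, 1), (839004282, 71, 1), (839004794, 23, 1),
  (841101434, -185, 1), (841101946, -41, 1), (843198586, -57, 1), (843199098, -9, 1),
  (845295738, 199, 1), (845296250, 55, 1), (847392890, 39, 1), (849490042, -89, 1),
  (851587194, -25, 1), (853684346, 103, 1), (888622964, 1, 2), (920350134, -1, 8),
  (948706976, 393, 1), (948706984, 105, 1), (950869152, 33, 1), (950869160, -95, 1),
  (950869168, -31, 1), (950869176, 97, 1), (981644914, 15, 1), (983742066, -17, 1),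
  (985838706, -1, 1), (987935858, 31, 1), (1037294909, -3, 2), (1073741823, 3, 8)]

/-- membership in the witness list -/
def W (c : ℕ) : Bool := wit.any fun t => t.1 == c

set_option maxRecDepth 100000 in
theorem search_true : search true (fun _ => false) 10 [] = true := by decide +kernel

set_option maxRecDepth 100000 in
theorem search_false : search false W 10 [] = true := by decide +kernel

/-- validity of one witness -/
def witOK (t : ℕ × ℤ × ℤ) : Bool :=
  t.2.2 != 0 && (List.range 10).all fun a =>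
    (strip 10 ((t.2.1 - a * t.2.2) * t.2.2) % 4 != 0) &&
      ((clsI ((t.2.1 - a * t.2.2) * t.2.2)).val == t.1 / 8 ^ a % 8)

set_option maxRecDepth 100000 in
theorem wit_ok : wit.all witOK = true := by decide +kernel

/-! ### correctness of the search -/

theorem TN_eq : ∀ i j : Fin 8, TN i.val j.val = T i j := by decide
theorem add_val : ∀ i j : Fin 8, (add i j).val = i.val ^^^ j.val := by decide
theorem DD_eq : ∀ j : Fin 9, DD j.val = (clsI ((j.val : ℤ) + 1)).val := by decide
theorem EE_eq : ∀ j : Fin 9, EE j.val = (clsI (-((j.val : ℤ) + 1))).val := by decide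

/-- the prefix of length `n` of a sequence of classes, last element first -/
def pre (x : ℕ → Fin 8) : ℕ → List ℕ
  | 0 => []
  | n + 1 => (x n).val :: pre x n

/-- the symbol condition for the pair of positions `a < b` -/
def cond (x : ℕ → Fin 8) (e : Bool) (a b : ℕ) : Prop :=
  T (add (x a) (clsI ((b : ℤ) - a))) (add (x b) (clsI ((a : ℤ) - b))) = e

theorem okAdd_pre (x : ℕ → Fin 8) (e : Bool) (b : ℕ) (hb : b < 10)
    (h : ∀ a, a < b → cond x e a b) :
    ∀ n j, n + j = b → okAdd e j (pre x n) (x b).val = true := by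
  intro n
  induction n with
  | zero => intro j _; rfl
  | succ n ih =>
    intro j hj
    have h1 := h n (by omega)
    unfold cond at h1
    have e1 : ((b : ℤ) - (n : ℤ)) = (j : ℤ) + 1 := by omega
    have e2 : ((n : ℤ) - (b : ℤ)) = -((j : ℤ) + 1) := by omega
    rw [e1, e2, ← TN_eq, add_val, add_val] at h1
    have hD := DD_eq ⟨j, by omega⟩
    have hE := EE_eq ⟨j, by omega⟩
    simp only at hD hE
    rw [← hD, ← hE] at h1
    unfold pre okAdd
    rw [h1, ih (j + 1) (by omega)]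
    simp

theorem search_spec (x : ℕ → Fin 8) (e : Bool) (V : ℕ → Bool)
    (h : ∀ a b, a < b → b < 10 → cond x e a b) :
    ∀ k n, n + k = 10 → search e V k (pre x n) = true → V (code (pre x 10)) = true := by
  intro k
  induction k with
  | zero =>
    intro n hn hs
    have : n = 10 := by omega
    rw [this] at hs
    exact hs
  | succ k ih =>
    intro n hn hs
    unfold search at hs
    rw [List.all_eq_true] at hs
    have h1 := hs (x n).val (List.mem_range.mpr (x n).isLt)
    have h2 : okAdd e 0 (pre x n) (x n).val = true :=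
      okAdd_pre x e n (by omega) (fun a ha => h a n ha (by omega)) n 0 (by omega)
    rw [h2] at h1
    simp only [Bool.not_true, Bool.false_or] at h1
    exact ih (n + 1) (by omega) h1

theorem digit (x : ℕ → Fin 8) (a : ℕ) (ha : a < 10) :
    code (pre x 10) / 8 ^ a % 8 = (x a).val := by
  have h0 := (x 0).isLt
  have h1 := (x 1).isLt
  have h2 := (x 2).isLt
  have h3 := (x 3).isLt
  have h4 := (x 4).isLt
  have h5 := (x 5).isLt
  have h6 := (x 6).isLt
  have h7 := (x 7).isLt
  have h8 := (x 8).isLt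
  have h9 := (x 9).isLt
  simp only [code, pre, List.foldl]
  interval_cases a <;> omega

theorem not_cond_true (x : ℕ → Fin 8) (h : ∀ a b, a < b → b < 10 → cond x true a b) : False := by
  have := search_spec x true (fun _ => false) h 10 0 rfl search_true
  simp at this

theorem exists_wit (x : ℕ → Fin 8) (h : ∀ a b, a < b → b < 10 → cond x false a b) :
    ∃ n d : ℤ, d ≠ 0 ∧ ∀ a : ℕ, a < 10 →
      strip 10 ((n - a * d) * d) % 4 ≠ 0 ∧ clsI ((n - a * d) * d) = x a := by
  have h1 := search_spec x false W h 10 0 rfl search_false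
  unfold W at h1
  rw [List.any_eq_true] at h1
  obtain ⟨t, ht, hc⟩ := h1
  have h2 := wit_ok
  rw [List.all_eq_true] at h2
  have h3 := h2 t ht
  unfold witOK at h3
  rw [Bool.and_eq_true, List.all_eq_true] at h3
  obtain ⟨h4, h5⟩ := h3
  refine ⟨t.2.1, t.2.2, by simpa using h4, ?_⟩
  intro a ha
  have h6 := h5 a (List.mem_range.mpr ha)
  rw [Bool.and_eq_true] at h6
  refine ⟨by simpa using h6.1, ?_⟩
  have h7 := h6.2
  rw [beq_iff_eq] at h7
  have h8 : t.1 = code (pre x 10) := by simpa using hc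
  rw [h8, digit x a ha] at h7
  exact Fin.ext h7

theorem clsI_ok : ∀ n : Fin 9, strip 10 ((n.val : ℤ) + 1) % 4 ≠ 0 ∧
    strip 10 (-((n.val : ℤ) + 1)) % 4 ≠ 0 := by decide

theorem cl_sub_pos (a b : ℕ) (hab : a < b) (hb : b < 10) :
    cl ((b : ℚ_[2]) - (a : ℚ_[2])) = clsI ((b : ℤ) - a) ∧
      cl ((a : ℚ_[2]) - (b : ℚ_[2])) = clsI ((a : ℤ) - b) := by
  obtain ⟨j, hj, hj'⟩ : ∃ j : ℕ, j < 9 ∧ (b : ℤ) - a = (j : ℤ) + 1 := ⟨b - a - 1, by omega, by omega⟩
  have hj'' : (a : ℤ) - b = -((j : ℤ) + 1) := by omega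
  have h := clsI_ok ⟨j, hj⟩
  constructor
  · rw [hj', ← cl_int _ h.1, ← hj']; push_cast; rfl
  · rw [hj'', ← cl_int _ h.2, ← hj'']; push_cast; rfl

/-- **Shadow theorem.** Ten nonzero elements `u a` of `ℚ₂` such that all the conics
`u_a/(b-a) X² + u_b/(a-b) Y² = 1` behave in the same way are, up to squares, the elements `z - a`
for one `z` in `ℚ₂`. -/
theorem shadow (u : ℕ → ℚ_[2]) (hu : ∀ a, a < 10 → u a ≠ 0) (P : Prop)
    (h : ∀ a b : ℕ, a < b → b < 10 →
      ((∃ X Y : ℚ_[2], u a / ((b : ℚ_[2]) - a) * X ^ 2 + u b / ((a : ℚ_[2]) - b) * Y ^ 2 = 1) ↔ P)) :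
    ∃ z : ℚ_[2], ∀ a : ℕ, a < 10 → z ≠ a ∧ ∃ w : ℚ_[2], w ≠ 0 ∧ z - a = u a * w ^ 2 := by
  classical
  have hne : ∀ a b : ℕ, a < b → ((b : ℚ_[2]) - a) ≠ 0 ∧ ((a : ℚ_[2]) - b) ≠ 0 := by
    intro a b hab
    have h1 : (b : ℚ_[2]) ≠ (a : ℚ_[2]) := by
      intro h; have := Nat.cast_injective h; omega
    exact ⟨sub_ne_zero.mpr h1, sub_ne_zero.mpr h1.symm⟩
  have key : ∀ a b : ℕ, a < b → b < 10 →
      (T (add (cl (u a)) (clsI ((b : ℤ) - a))) (add (cl (u b)) (clsI ((a : ℤ) - b))) = false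
        ↔ P) := by
    intro a b hab hb
    rw [← h a b hab hb, conic_cl _ _ (div_ne_zero (hu a (by omega)) (hne a b hab).1)
      (div_ne_zero (hu b hb) (hne a b hab).2), cl_div _ _ (hu a (by omega)) (hne a b hab).1,
      cl_div _ _ (hu b hb) (hne a b hab).2, (cl_sub_pos a b hab hb).1, (cl_sub_pos a b hab hb).2]
  by_cases hP : P
  · obtain ⟨n, d, hd, hw⟩ := exists_wit (fun a => cl (u a))
      (fun a b hab hb => (key a b hab hb).mpr hP)
    refine ⟨(n : ℚ_[2]) / d, fun a ha => ?_⟩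
    obtain ⟨h1, h2⟩ := hw a ha
    have hd' : ((d : ℤ) : ℚ_[2]) ≠ 0 := by exact_mod_cast hd
    have h3 : (n - a * d) * d ≠ 0 := by
      intro h0; rw [h0] at h1; revert h1; decide
    have h4 : ((((n - a * d) * d : ℤ)) : ℚ_[2]) ≠ 0 := by exact_mod_cast h3
    have h5 : (n : ℚ_[2]) / d - a = ((((n - a * d) * d : ℤ)) : ℚ_[2]) * (d : ℚ_[2])⁻¹ ^ 2 := by
      push_cast
      field_simp
    have h6 := cl_int _ h1
    rw [h2] at h6
    obtain ⟨w, hw0, hw⟩ := (cl_eq_iff _ _ h4 (hu a ha)).mp h6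
    refine ⟨?_, w * (d : ℚ_[2])⁻¹, mul_ne_zero hw0 (inv_ne_zero hd'), ?_⟩
    · intro h0
      rw [h0, sub_self] at h5
      exact (mul_ne_zero h4 (pow_ne_zero _ (inv_ne_zero hd'))) h5.symm
    · rw [h5, hw]; ring
  · exfalso
    refine not_cond_true (fun a => cl (u a)) (fun a b hab hb => ?_)
    unfold cond
    rw [← Bool.not_eq_false]
    intro h0
    exact hP ((key a b hab hb).mp h0)

end Vale.Agent.P025.H378
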