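import Mathlib

/-!
# Square classes and Hilbert symbols of `ℚ₂`
-/

namespace Vale.Agent.P025.H378

open PadicInt

/-- Representatives of the square classes of `ℚ₂`, index `4 b₀ + 2 b₁ + b₂` for
`2^b₀ (-1)^b₁ 5^b₂`. -/
def R : Fin 8 → ℤ := ![1, 5, -1, -5, 2, 10, -2, -10]

/-- addition of classes -/
def add (i j : Fin 8) : Fin 8 := i ^^^ j

/-- Hilbert symbol of the classes `i`, `j` is `-1` -/
def T (i j : Fin 8) : Bool :=
  xor (i.val.testBit 1 && j.val.testBit 1)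
    (xor (i.val.testBit 2 && j.val.testBit 0) (i.val.testBit 0 && j.val.testBit 2))

/-! ### squares -/

theorem exists_sq_of_mod8 (u : ℤ_[2]) (h : toZModPow 3 u = 1) : ∃ w : ℤ_[2], w ^ 2 = u := by
  have h1 : toZModPow 3 (u - 1) = 0 := by rw [map_sub, map_one, h, sub_self]
  rw [← RingHom.mem_ker, ker_toZModPow, ← norm_le_pow_iff_mem_span_pow] at h1
  have hF := hensels_lemma (p := 2) (R := ℤ_[2]) (F := Polynomial.X ^ 2 - Polynomial.C u) (a := 1)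
    (by
      simp only [map_sub, map_pow, Polynomial.aeval_X, Polynomial.aeval_C, Algebra.algebraMap_self,
        RingHom.id_apply, Polynomial.derivative_X_pow,
        Polynomial.derivative_C, one_pow, sub_zero]
      simp only [map_mul, map_natCast, Polynomial.aeval_X, map_pow, one_pow, mul_one]
      have h2 : ‖((2 : ℕ) : ℤ_[2])‖ = ((2 : ℕ) : ℝ)⁻¹ := norm_p
      rw [norm_sub_rev]
      refine lt_of_le_of_lt h1 ?_
      norm_num at h2 ⊢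
      rw [h2]; norm_num)
  obtain ⟨z, hz, -⟩ := hF
  refine ⟨z, ?_⟩
  simpa [sub_eq_zero] using hz

theorem R_ne (i : Fin 8) : R i ≠ 0 := by revert i; decide

theorem R_cast_ne (i : Fin 8) : ((R i : ℤ) : ℚ_[2]) ≠ 0 := by
  exact_mod_cast R_ne i

/-- the integer `g` with `R i * R j = R (i+j) * g²` -/
def gg (i j : Fin 8) : ℤ :=
  (if i.val.testBit 2 && j.val.testBit 2 then 2 else 1) *
  (if i.val.testBit 0 && j.val.testBit 0 then 5 else 1)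

theorem R_mul (i j : Fin 8) : R i * R j = R (add i j) * gg i j ^ 2 := by
  revert i j; decide

theorem gg_ne (i j : Fin 8) : gg i j ≠ 0 := by revert i j; decide

/-- odd residues mod 8 are their own inverses -/
theorem unit_class (v : ZMod (2 ^ 3)) (h : ¬ (ZMod.castHom (show 2 ∣ 2 ^ 3 by norm_num) (ZMod 2) v = 0)) :
    ∃ i : Fin 8, i.val < 4 ∧ ((R i : ℤ) : ZMod (2 ^ 3)) * v = 1 := by
  revert v; decide

theorem rep_unit (v : ℤ_[2]) (hv : ‖v‖ = 1) :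
    ∃ i : Fin 8, ∃ w : ℚ_[2], w ≠ 0 ∧ (v : ℚ_[2]) = (R i : ℚ_[2]) * w ^ 2 := by
  have hv' : ¬ (ZMod.castHom (show 2 ∣ 2 ^ 3 by norm_num) (ZMod 2) (toZModPow 3 v) = 0) := by
    intro h
    have hu : IsUnit v := isUnit_iff.mpr hv
    have hu2 := (hu.map (toZModPow 3)).map (ZMod.castHom (show 2 ∣ 2 ^ 3 by norm_num) (ZMod 2))
    rw [h] at hu2
    exact not_isUnit_zero hu2
  obtain ⟨i, -, hi⟩ := unit_class _ hv'
  obtain ⟨w, hw⟩ := exists_sq_of_mod8 ((R i : ℤ_[2]) * v) (by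
    rw [map_mul, map_intCast]; exact hi)
  have hv0 : v ≠ 0 := by
    rintro rfl; simp at hv
  refine ⟨i, (w : ℚ_[2]) / (R i : ℚ_[2]), ?_, ?_⟩
  · apply div_ne_zero _ (R_cast_ne i)
    intro h0
    have : w = 0 := coe_eq_zero.mp h0
    rw [this] at hw
    have h3 : ((R i : ℤ) : ℤ_[2]) * v = 0 := by rw [← hw]; simp
    rcases mul_eq_zero.mp h3 with h4 | h4
    · exact R_ne i (by exact_mod_cast h4)
    · exact hv0 h4
  · have h5 : (w : ℚ_[2]) ^ 2 = (R i : ℚ_[2]) * (v : ℚ_[2]) := by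
      have := congrArg (fun x : ℤ_[2] => (x : ℚ_[2])) hw
      simpa using this
    rw [div_pow, h5]
    have := R_cast_ne i
    field_simp

theorem rep (u : ℚ_[2]) (hu : u ≠ 0) :
    ∃ i : Fin 8, ∃ w : ℚ_[2], w ≠ 0 ∧ u = (R i : ℚ_[2]) * w ^ 2 := by
  have h20 : (2 : ℚ_[2]) ≠ 0 := two_ne_zero
  set n : ℤ := u.valuation with hn
  -- unit part
  set v : ℚ_[2] := u * (2 : ℚ_[2]) ^ (-n) with hvdef
  have hv : ‖v‖ = 1 := by
    rw [hvdef, norm_mul, norm_zpow]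
    have h2 : ‖(2 : ℚ_[2])‖ = (2 : ℝ)⁻¹ := by
      have := Padic.norm_p (p := 2)
      exact_mod_cast this
    rw [h2, Padic.norm_eq_zpow_neg_valuation hu, ← hn]
    simp only [Nat.cast_ofNat, inv_zpow', neg_neg]
    rw [← zpow_add₀ (by norm_num : (2 : ℝ) ≠ 0)]
    simp
  have huv : u = v * (2 : ℚ_[2]) ^ n := by
    rw [hvdef, mul_assoc, ← zpow_add₀ h20]; simp
  obtain ⟨i, w, hw0, hw⟩ := rep_unit ⟨v, hv.le⟩ hv
  change v = _ at hw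
  rcases Int.even_or_odd' n with ⟨m, hm | hm⟩
  · refine ⟨i, w * 2 ^ m, mul_ne_zero hw0 (zpow_ne_zero _ h20), ?_⟩
    rw [huv, hw, hm, mul_pow, mul_assoc, ← zpow_natCast ((2 : ℚ_[2]) ^ m), ← zpow_mul]
    congr 3
    push_cast; ring
  · -- multiply by the class of 2, which is 4
    have hR := R_mul i 4
    refine ⟨add i 4, w * gg i 4 * 2 ^ m, ?_, ?_⟩
    · refine mul_ne_zero (mul_ne_zero hw0 ?_) (zpow_ne_zero _ h20)
      exact_mod_cast gg_ne i 4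
    · have hR' : ((R i : ℤ) : ℚ_[2]) * 2 = (R (add i 4) : ℚ_[2]) * (gg i 4 : ℚ_[2]) ^ 2 := by
        have h4 : R 4 = 2 := by decide
        rw [h4] at hR
        exact_mod_cast hR
      rw [huv, hw, hm, zpow_add₀ h20, zpow_mul', zpow_one]
      have : (R (add i 4) : ℚ_[2]) * (w * (gg i 4 : ℚ_[2]) * 2 ^ m) ^ 2 =
          ((R (add i 4) : ℚ_[2]) * (gg i 4 : ℚ_[2]) ^ 2) * (w ^ 2 * ((2 : ℚ_[2]) ^ m) ^ 2) := by ring
      rw [this, ← hR']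
      have h6 : ((2 : ℚ_[2]) ^ m) ^ (2 : ℤ) = ((2 : ℚ_[2]) ^ m) ^ 2 := by
        exact_mod_cast zpow_natCast ((2 : ℚ_[2]) ^ m) 2
      rw [h6]
      ring

/-! ### uniqueness of the class -/

theorem sq_mod16 (x : ZMod (2 ^ 4)) :
    (x ^ 2 = 0 ∨ x ^ 2 = 1 ∨ x ^ 2 = 4 ∨ x ^ 2 = 9) := by
  revert x; decide

theorem R_not_sq (i : Fin 8) (x : ZMod (2 ^ 4)) (h : x ^ 2 = ((R i : ℤ) : ZMod (2 ^ 4))) :
    i = 0 := by
  have key : ∀ i : Fin 8, (((R i : ℤ) : ZMod (2 ^ 4)) = 0 ∨ ((R i : ℤ) : ZMod (2 ^ 4)) = 1 ∨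
      ((R i : ℤ) : ZMod (2 ^ 4)) = 4 ∨ ((R i : ℤ) : ZMod (2 ^ 4)) = 9) → i = 0 := by decide
  exact key i (h ▸ sq_mod16 x)

theorem norm_int_le_one (n : ℤ) : ‖((n : ℤ) : ℚ_[2])‖ ≤ 1 := Padic.norm_int_le_one n

theorem eq_zero_of_sq (i : Fin 8) (w : ℚ_[2]) (h : (R i : ℚ_[2]) = w ^ 2) : i = 0 := by
  have hw : ‖w‖ ≤ 1 := by
    have h1 : ‖w‖ ^ 2 ≤ 1 := by
      rw [← norm_pow, ← h]; exact norm_int_le_one _
    nlinarith [norm_nonneg w]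
  obtain ⟨w', hw'⟩ : ∃ w' : ℤ_[2], (w' : ℚ_[2]) = w := ⟨⟨w, hw⟩, rfl⟩
  have h2 : w' ^ 2 = ((R i : ℤ) : ℤ_[2]) := by
    apply PadicInt.ext
    push_cast
    rw [hw']
    exact h.symm
  refine R_not_sq i (toZModPow 4 w') ?_
  rw [← map_pow, h2, map_intCast]

theorem add_eq_zero : ∀ i j : Fin 8, add i j = 0 → i = j := by decide

theorem class_unique (i j : Fin 8) (w w' : ℚ_[2]) (hw : w ≠ 0)
    (h : (R i : ℚ_[2]) * w ^ 2 = (R j : ℚ_[2]) * w' ^ 2) : i = j := by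
  apply add_eq_zero
  have hR : ((R i : ℤ) : ℚ_[2]) * (R j : ℚ_[2]) = (R (add i j) : ℚ_[2]) * (gg i j : ℚ_[2]) ^ 2 := by
    exact_mod_cast R_mul i j
  have hg : ((gg i j : ℤ) : ℚ_[2]) ≠ 0 := by exact_mod_cast gg_ne i j
  have hj := R_cast_ne j
  refine eq_zero_of_sq (add i j) ((R j : ℚ_[2]) * w' / (w * gg i j)) ?_
  have h1 : (R (add i j) : ℚ_[2]) = (R i : ℚ_[2]) * (R j : ℚ_[2]) / (gg i j : ℚ_[2]) ^ 2 := by
    rw [hR]; field_simp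
  rw [h1, div_pow, mul_pow, mul_pow, div_eq_div_iff (pow_ne_zero _ hg)
    (mul_ne_zero (pow_ne_zero _ hw) (pow_ne_zero _ hg))]
  linear_combination ((R j : ℚ_[2]) * (gg i j : ℚ_[2]) ^ 2) * h

/-! ### conics -/

/-- explicit points: `R i x² + R j y² = 4^k (8 m + 1)` -/
def pts : Fin 8 → Fin 8 → ℤ × ℤ × ℕ × ℤ := ![
  ![(0, 1, 0, 0), (1, 0, 0, 0), (1, 0, 0, 0), (1, 0, 0, 0), (1, 0, 0, 0), (1, 0, 0, 0), (1, 0, 0, 0), (1, 0, 0, 0)],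
  ![(0, 1, 0, 0), (1, 2, 0, 3), (1, 1, 1, 0), (1, 2, 0, -2), (0, 0, 0, 0), (0, 0, 0, 0), (0, 0, 0, 0), (0, 0, 0, 0)],
  ![(0, 1, 0, 0), (1, 1, 1, 0), (0, 0, 0, 0), (0, 0, 0, 0), (1, 1, 0, 0), (1, 1, 0, 1), (0, 0, 0, 0), (0, 0, 0, 0)],
  ![(0, 1, 0, 0), (2, 1, 0, -2), (0, 0, 0, 0), (0, 0, 0, 0), (0, 0, 0, 0), (0, 0, 0, 0), (1, 1, 0, -1), (1, 1, 0, -2)],
  ![(0, 1, 0, 0), (0, 0, 0, 0), (1, 1, 0, 0), (0, 0, 0, 0), (1, 1, 1, 0), (0, 0, 0, 0), (3, 1, 2, 0), (0, 0, 0, 0)],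
  ![(0, 1, 0, 0), (0, 0, 0, 0), (1, 1, 0, 1), (0, 0, 0, 0), (0, 0, 0, 0), (1, 3, 1, 3), (0, 0, 0, 0), (1, 5, 2, -2)],
  ![(0, 1, 0, 0), (0, 0, 0, 0), (0, 0, 0, 0), (1, 1, 0, -1), (1, 3, 2, 0), (0, 0, 0, 0), (0, 0, 0, 0), (1, 3, 1, -3)],
  ![(0, 1, 0, 0), (0, 0, 0, 0), (0, 0, 0, 0), (1, 1, 0, -2), (0, 0, 0, 0), (5, 1, 2, -2), (1, 3, 1, -1), (0, 0, 0, 0)]]

theorem pts_spec : ∀ i j : Fin 8, T i j = false →
    R i * (pts i j).1 ^ 2 + R j * (pts i j).2.1 ^ 2 =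
      4 ^ (pts i j).2.2.1 * (8 * (pts i j).2.2.2 + 1) := by
  decide

theorem sq_int (k : ℕ) (m : ℤ) :
    ∃ w : ℚ_[2], w ≠ 0 ∧ w ^ 2 = ((4 ^ k * (8 * m + 1) : ℤ) : ℚ_[2]) := by
  obtain ⟨w, hw⟩ := exists_sq_of_mod8 ((8 * m + 1 : ℤ) : ℤ_[2]) (by
    rw [map_intCast]
    push_cast
    have : (8 : ZMod (2 ^ 3)) = 0 := by decide
    rw [this]; ring)
  have hne : ((8 * m + 1 : ℤ) : ℚ_[2]) ≠ 0 := by
    have : (8 * m + 1 : ℤ) ≠ 0 := by omega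
    exact_mod_cast this
  have hw' : (w : ℚ_[2]) ^ 2 = ((8 * m + 1 : ℤ) : ℚ_[2]) := by
    have := congrArg (fun x : ℤ_[2] => (x : ℚ_[2])) hw
    rw [← coe_intCast, ← this]
    rfl
  refine ⟨2 ^ k * w, ?_, ?_⟩
  · refine mul_ne_zero (pow_ne_zero _ two_ne_zero) ?_
    intro h0
    rw [h0] at hw'
    exact hne (by rw [← hw']; ring)
  · rw [mul_pow, hw', ← pow_mul, mul_comm k 2, pow_mul]
    push_cast
    norm_num

theorem conic_of_T (i j : Fin 8) (h : T i j = false) :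
    ∃ X Y : ℚ_[2], (R i : ℚ_[2]) * X ^ 2 + (R j : ℚ_[2]) * Y ^ 2 = 1 := by
  obtain ⟨w, hw0, hw⟩ := sq_int (pts i j).2.2.1 (pts i j).2.2.2
  have hs := pts_spec i j h
  rw [← hs] at hw
  refine ⟨(pts i j).1 / w, (pts i j).2.1 / w, ?_⟩
  rw [div_pow, div_pow, hw]
  have hne : (((R i * (pts i j).1 ^ 2 + R j * (pts i j).2.1 ^ 2 : ℤ)) : ℚ_[2]) ≠ 0 := by
    rw [← hw]; exact pow_ne_zero _ hw0
  push_cast at hne ⊢
  field_simp

/-- parity of an element of `ZMod 16` -/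
def odd16 (x : ZMod (2 ^ 4)) : Bool := x.val % 2 == 1

theorem sq_cases (x : ZMod (2 ^ 4)) :
    ∃ s : Fin 4, x ^ 2 = (![0, 4, 1, 9] s : ZMod (2 ^ 4)) ∧ (odd16 x = decide (2 ≤ s.val)) := by
  revert x; decide

theorem no_sol : ∀ i j : Fin 8, T i j = true → ∀ a b c : Fin 4,
    ((R i : ℤ) : ZMod (2 ^ 4)) * (![0, 4, 1, 9] a : ZMod (2 ^ 4)) +
      ((R j : ℤ) : ZMod (2 ^ 4)) * (![0, 4, 1, 9] b : ZMod (2 ^ 4)) =
      (![0, 4, 1, 9] c : ZMod (2 ^ 4)) → a.val < 2 ∧ b.val < 2 ∧ c.val < 2 := by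
  decide

theorem norm_lt_one_of_not_odd (x : ℤ_[2]) (h : odd16 (toZModPow 4 x) = false) : ‖x‖ < 1 := by
  by_contra hx
  have hx1 : ‖x‖ = 1 := le_antisymm (norm_le_one x) (not_lt.mp hx)
  have hu : IsUnit x := isUnit_iff.mpr hx1
  have hu2 := hu.map (toZModPow 4)
  revert h hu2
  generalize (toZModPow 4) x = y
  revert y
  intro y h hu
  rw [isUnit_iff_exists_inv] at hu
  obtain ⟨b, hb⟩ := hu
  revert h hb
  revert b y
  decide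

theorem T_of_conic (i j : Fin 8) (X Y : ℚ_[2])
    (h : (R i : ℚ_[2]) * X ^ 2 + (R j : ℚ_[2]) * Y ^ 2 = 1) : T i j = false := by
  by_contra hT
  rw [Bool.not_eq_false] at hT
  -- scale to a primitive triple
  obtain ⟨x, y, z, hprim, heq⟩ : ∃ x y z : ℤ_[2], (‖x‖ = 1 ∨ ‖y‖ = 1 ∨ ‖z‖ = 1) ∧
      ((R i : ℤ) : ℤ_[2]) * x ^ 2 + ((R j : ℤ) : ℤ_[2]) * y ^ 2 = z ^ 2 := by
    have h2 : ‖(2 : ℚ_[2])‖ = (2 : ℝ)⁻¹ := by
      have := Padic.norm_p (p := 2)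
      exact_mod_cast this
    have h20 : (2 : ℚ_[2]) ≠ 0 := two_ne_zero
    -- choose the element of maximal norm among X, Y, 1
    obtain ⟨m, hm0, hX, hY, h1, hmax⟩ : ∃ m : ℚ_[2], m ≠ 0 ∧ ‖X‖ ≤ ‖m‖ ∧ ‖Y‖ ≤ ‖m‖ ∧
        ‖(1 : ℚ_[2])‖ ≤ ‖m‖ ∧ (m = X ∨ m = Y ∨ m = 1) := by
      rcases le_total ‖X‖ ‖Y‖ with hXY | hXY
      · rcases le_total ‖Y‖ ‖(1 : ℚ_[2])‖ with hY1 | hY1
        · exact ⟨1, one_ne_zero, hXY.trans hY1, hY1, le_rfl, Or.inr (Or.inr rfl)⟩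
        · refine ⟨Y, ?_, hXY, le_rfl, hY1, Or.inr (Or.inl rfl)⟩
          intro h0; rw [h0] at hY1; norm_num at hY1
      · rcases le_total ‖X‖ ‖(1 : ℚ_[2])‖ with hX1 | hX1
        · exact ⟨1, one_ne_zero, hX1, hXY.trans hX1, le_rfl, Or.inr (Or.inr rfl)⟩
        · refine ⟨X, ?_, le_rfl, hXY, hX1, Or.inl rfl⟩
          intro h0; rw [h0] at hX1; norm_num at hX1
    have hmn : 0 < ‖m‖ := norm_pos_iff.mpr hm0
    have hd : ∀ t : ℚ_[2], ‖t‖ ≤ ‖m‖ → ‖t / m‖ ≤ 1 := by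
      intro t ht
      rw [norm_div]
      exact div_le_one_of_le₀ ht (norm_nonneg _)
    refine ⟨⟨X / m, hd _ hX⟩, ⟨Y / m, hd _ hY⟩, ⟨1 / m, hd _ h1⟩, ?_, ?_⟩
    · rcases hmax with rfl | rfl | rfl
      · left; change ‖m / m‖ = 1; rw [div_self hm0]; simp
      · right; left; change ‖m / m‖ = 1; rw [div_self hm0]; simp
      · right; right; change ‖(1 : ℚ_[2]) / 1‖ = 1; simp
    · apply PadicInt.ext
      push_cast
      change (R i : ℚ_[2]) * (X / m) ^ 2 + (R j : ℚ_[2]) * (Y / m) ^ 2 = (1 / m) ^ 2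
      field_simp
      linear_combination h
  have h16 := congrArg (toZModPow 4) heq
  simp only [map_add, map_mul, map_pow, map_intCast] at h16
  obtain ⟨a, ha, ha'⟩ := sq_cases (toZModPow 4 x)
  obtain ⟨b, hb, hb'⟩ := sq_cases (toZModPow 4 y)
  obtain ⟨c, hc, hc'⟩ := sq_cases (toZModPow 4 z)
  rw [ha, hb, hc] at h16
  obtain ⟨h1, h2, h3⟩ := no_sol i j hT a b c h16
  have k1 : ‖x‖ < 1 := norm_lt_one_of_not_odd x (by rw [ha']; simp; omega)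
  have k2 : ‖y‖ < 1 := norm_lt_one_of_not_odd y (by rw [hb']; simp; omega)
  have k3 : ‖z‖ < 1 := norm_lt_one_of_not_odd z (by rw [hc']; simp; omega)
  rcases hprim with h | h | h <;> linarith

theorem conic_iff (i j : Fin 8) :
    (∃ X Y : ℚ_[2], (R i : ℚ_[2]) * X ^ 2 + (R j : ℚ_[2]) * Y ^ 2 = 1) ↔ T i j = false :=
  ⟨fun ⟨X, Y, h⟩ => T_of_conic i j X Y h, conic_of_T i j⟩

end Vale.Agent.P025.H378
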